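import Mathlib
import Crest.Agent.Helper4.Common

/-!
Generic `ℓ²`-sum part of S0166 (row 125): if every block satisfies the block inequality
`BlockCore`, then the `ℓ²`-sum `lp G 2` has averaged asymptotic midpoint modulus at least
`√(1 + t²/4) - 1` at every `t > 0` (hence the three moduli bounds of S0166), and chains inside
single blocks prevent asymptotically uniformly convex renormings of the sum.
-/

set_option autoImplicit false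

open scoped ENNReal

namespace Crest.Agent.Helper9

open Crest.Agent.Helper4

/-- The block inequality: at every `x` and `ε > 0` some cof set `F` satisfies
`2 a ‖x‖ + c ‖y‖ - ε ≤ ‖x + y‖ + ‖x - y‖` for all `y ∈ F` and all weights `a ≥ 0`, `0 < c ≤ 1/2`
with `a² + c² ≤ 1`. -/
def BlockCore (X : Type) [NormedAddCommGroup X] [NormedSpace ℝ X] : Prop :=
  ∀ (x : X) (ε : ℝ), 0 < ε → ∃ F : Set X, Crest.Agent.Helper4.Cof F ∧ ∀ y ∈ F, ∀ a c : ℝ,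
    0 ≤ a → 0 < c → a ^ 2 + c ^ 2 ≤ 1 → c ≤ 1 / 2 →
      2 * a * ‖x‖ + c * ‖y‖ - ε ≤ ‖x + y‖ + ‖x - y‖

/-- The preimage of a cof set under a continuous linear map is cof. -/
theorem cof_preimage {X Y : Type*} [NormedAddCommGroup X] [NormedSpace ℝ X]
    [NormedAddCommGroup Y] [NormedSpace ℝ Y] (L : X →L[ℝ] Y) {F : Set Y} (hF : Cof F) :
    Cof (L ⁻¹' F) := by
  obtain ⟨k, q, C, -, hq, -⟩ := hF.data
  have h := cof_ker (q.comp L)
  convert h using 1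
  ext x
  simp [hq]

/-- A finite intersection of cof sets is cof. -/
theorem cof_biInter {X : Type*} [NormedAddCommGroup X] [NormedSpace ℝ X] {ι : Type*}
    (s : Finset ι) (F : ι → Set X) (h : ∀ i ∈ s, Cof (F i)) : Cof {x | ∀ i ∈ s, x ∈ F i} := by
  classical
  induction s using Finset.induction_on with
  | empty => simpa using (cof_univ : Cof (Set.univ : Set X))
  | insert i s hi ih =>
    have h1 := h i (Finset.mem_insert_self i s)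
    have h2 := ih (fun j hj => h j (Finset.mem_insert_of_mem hj))
    convert h1.inter h2 using 1
    ext x
    simp

/-- From the weighted block inequality to the square-root form, for all ratios. -/
theorem block_bound {X : Type*} [NormedAddCommGroup X] [NormedSpace ℝ X] {x y : X} {ε : ℝ}
    (hε : 0 ≤ ε)
    (h : ∀ a c : ℝ, 0 ≤ a → 0 < c → a ^ 2 + c ^ 2 ≤ 1 → c ≤ 1 / 2 →
      2 * a * ‖x‖ + c * ‖y‖ - ε ≤ ‖x + y‖ + ‖x - y‖) :
    Real.sqrt (4 * ‖x‖ ^ 2 + ‖y‖ ^ 2) ≤ ‖x + y‖ + ‖x - y‖ + ε := by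
  have hX : 0 ≤ ‖x‖ := norm_nonneg x
  have hY : 0 ≤ ‖y‖ := norm_nonneg y
  have tri1 : 2 * ‖x‖ ≤ ‖x + y‖ + ‖x - y‖ := by
    have h1 : ‖(x + y) + (x - y)‖ ≤ ‖x + y‖ + ‖x - y‖ := norm_add_le _ _
    have e : (x + y) + (x - y) = (2:ℝ) • x := by rw [two_smul]; abel
    rw [e, norm_smul] at h1
    simpa using h1
  have tri2 : 2 * ‖y‖ ≤ ‖x + y‖ + ‖x - y‖ := by
    have h1 : ‖(x + y) - (x - y)‖ ≤ ‖x + y‖ + ‖x - y‖ := norm_sub_le _ _
    have e : (x + y) - (x - y) = (2:ℝ) • y := by rw [two_smul]; abel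
    rw [e, norm_smul] at h1
    simpa using h1
  by_cases hcase : 3 * ‖y‖ ^ 2 ≤ 4 * ‖x‖ ^ 2
  · rcases eq_or_lt_of_le hY with hY0 | hYpos
    · have h1 : Real.sqrt (4 * ‖x‖ ^ 2 + ‖y‖ ^ 2) = 2 * ‖x‖ := by
        rw [← hY0, show 4 * ‖x‖ ^ 2 + (0:ℝ) ^ 2 = (2 * ‖x‖) ^ 2 by ring]
        exact Real.sqrt_sq (by positivity)
      rw [h1]
      linarith
    · set R := Real.sqrt (4 * ‖x‖ ^ 2 + ‖y‖ ^ 2) with hR
      have hRpos : 0 < R := Real.sqrt_pos.2 (by positivity)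
      have hRsq : R ^ 2 = 4 * ‖x‖ ^ 2 + ‖y‖ ^ 2 := Real.sq_sqrt (by positivity)
      have h2Y : 2 * ‖y‖ ≤ R := by
        refine Real.le_sqrt_of_sq_le ?_
        nlinarith
      have key := h (2 * ‖x‖ / R) (‖y‖ / R) (by positivity) (by positivity)
        (by
          rw [div_pow, div_pow, ← add_div, div_le_one (by positivity)]
          nlinarith)
        (by
          rw [div_le_iff₀ hRpos]
          linarith)
      have e : 2 * (2 * ‖x‖ / R) * ‖x‖ + ‖y‖ / R * ‖y‖ = R := by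
        field_simp
        nlinarith
      linarith
  · have hcase' : 4 * ‖x‖ ^ 2 < 3 * ‖y‖ ^ 2 := not_le.1 hcase
    have h1 : Real.sqrt (4 * ‖x‖ ^ 2 + ‖y‖ ^ 2) ≤ 2 * ‖y‖ :=
      Real.sqrt_le_iff.2 ⟨by positivity, by nlinarith⟩
    linarith

section Sum

variable {G : ℕ → Type} [∀ k, NormedAddCommGroup (G k)] [∀ k, NormedSpace ℝ (G k)]

private lemma sum_sq_le_real (z : lp (fun _ : ℕ => ℝ) 2) (A : Finset ℕ) :
    ∑ k ∈ A, z k ^ 2 ≤ ‖z‖ ^ 2 := by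
  have := lp.sum_rpow_le_norm_rpow (p := 2) (by simp) z A
  simpa using this

private lemma hasSum_norm_sq (z : lp G 2) : HasSum (fun k => ‖z k‖ ^ 2) (‖z‖ ^ 2) := by
  have := lp.hasSum_norm (p := 2) (by simp) z
  simpa using this

/-- **Core estimate**: the `ℓ²`-sum of blocks satisfying `BlockCore` has averaged asymptotic
midpoint modulus at least `√(1 + t²/4) - 1` at every `t > 0`. -/
theorem lp_two_midpoint_core (hG : ∀ k, BlockCore (G k)) (t : ℝ) (ht : 0 < t) (x : lp G 2)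
    (hx : ‖x‖ = 1) (η : ℝ) (hη : 0 < η) :
    ∃ F : Set (lp G 2), Crest.Agent.Helper4.Cof F ∧ ∀ y ∈ F, ‖y‖ = 1 →
      Real.sqrt (1 + t ^ 2 / 4) - 1 - η ≤ (‖x + t • y‖ + ‖x - t • y‖) / 2 - 1 := by
  classical
  -- a finite set of blocks carrying most of `x`
  obtain ⟨s, hs⟩ : ∃ s : Finset ℕ, ‖x‖ ^ 2 - ∑ k ∈ s, ‖x k‖ ^ 2 < (η / 2) ^ 2 := by
    by_contra hcon
    simp only [not_exists, not_lt] at hcon
    have h1 : ‖x‖ ^ 2 ≤ ‖x‖ ^ 2 - (η / 2) ^ 2 :=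
      hasSum_le_of_sum_le (hasSum_norm_sq x) fun s => by linarith [hcon s]
    have h2 : 0 < (η / 2) ^ 2 := by positivity
    linarith
  set ε₀ : ℝ := η / (s.card + 1) with hε₀def
  have hε₀ : 0 < ε₀ := by positivity
  have hcard : (s.card : ℝ) * ε₀ ≤ η := by
    rw [hε₀def, ← mul_div_assoc, div_le_iff₀ (by positivity)]
    nlinarith [hη.le, (Nat.cast_nonneg s.card : (0:ℝ) ≤ s.card)]
  choose Fk hFk_cof hFk using fun k => hG k (x k) ε₀ hε₀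
  refine ⟨{y : lp G 2 | ∀ k ∈ s, y ∈ (lp.evalCLM ℝ G 2 k) ⁻¹' Fk k},
    cof_biInter s (fun k => (lp.evalCLM ℝ G 2 k) ⁻¹' Fk k)
      (fun k _ => cof_preimage _ (hFk_cof k)), fun y hy hy1 => ?_⟩
  -- the real sequences of block norms
  obtain ⟨u, hu⟩ : ∃ u : lp (fun _ : ℕ => ℝ) 2, u = lp.toNorm x := ⟨_, rfl⟩
  obtain ⟨p, hp⟩ : ∃ p : lp (fun _ : ℕ => ℝ) 2, p = lp.toNorm (x + t • y) := ⟨_, rfl⟩
  obtain ⟨q, hq⟩ : ∃ q : lp (fun _ : ℕ => ℝ) 2, q = lp.toNorm (x - t • y) := ⟨_, rfl⟩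
  obtain ⟨tail, htail⟩ : ∃ tail : lp (fun _ : ℕ => ℝ) 2,
      tail = u - ∑ k ∈ s, lp.single 2 k (u k) := ⟨_, rfl⟩
  obtain ⟨e, he⟩ : ∃ e : lp (fun _ : ℕ => ℝ) 2,
      e = (∑ k ∈ s, lp.single 2 k ε₀) + (2:ℝ) • tail := ⟨_, rfl⟩
  have hu_apply : ∀ k, u k = ‖x k‖ := fun k => by rw [hu]; rfl
  have hp_apply : ∀ k, p k = ‖x k + t • y k‖ := fun k => by rw [hp]; rfl
  have hq_apply : ∀ k, q k = ‖x k - t • y k‖ := fun k => by rw [hq]; rfl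
  have he_apply : ∀ k, e k = (if k ∈ s then ε₀ else 0) + 2 * (‖x k‖ - if k ∈ s then ‖x k‖ else 0) := by
    intro k
    simp only [he, htail, lp.coeFn_add, lp.coeFn_smul, lp.coeFn_sub, lp.coeFn_sum, Pi.add_apply,
      Pi.smul_apply, Pi.sub_apply, Finset.sum_apply, lp.coeFn_single, Finset.sum_pi_single,
      smul_eq_mul, hu_apply]
  -- the pointwise block estimate
  have hpt : ∀ k, Real.sqrt (4 * ‖x k‖ ^ 2 + t ^ 2 * ‖y k‖ ^ 2) ≤ (p + q + e) k := by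
    intro k
    have hnorm : ‖t • y k‖ = t * ‖y k‖ := by rw [norm_smul, Real.norm_eq_abs, abs_of_pos ht]
    have hrw : 4 * ‖x k‖ ^ 2 + t ^ 2 * ‖y k‖ ^ 2 = 4 * ‖x k‖ ^ 2 + ‖t • y k‖ ^ 2 := by
      rw [hnorm]; ring
    have hval : (p + q + e) k = ‖x k + t • y k‖ + ‖x k - t • y k‖ + e k := by
      simp only [lp.coeFn_add, Pi.add_apply, hp_apply, hq_apply]
    rw [hval, he_apply, hrw]
    by_cases hk : k ∈ s
    · have hmem : t • y k ∈ Fk k := (hFk_cof k).smul_mem t (hy k hk)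
      have hb := block_bound hε₀.le (hFk k (t • y k) hmem)
      simp only [hk, if_true, sub_self, mul_zero, add_zero]
      exact hb
    · simp only [hk, if_false, zero_add, sub_zero]
      have hX : 0 ≤ ‖x k‖ := norm_nonneg _
      have hY : 0 ≤ ‖t • y k‖ := norm_nonneg _
      have tri2 : 2 * ‖t • y k‖ ≤ ‖x k + t • y k‖ + ‖x k - t • y k‖ := by
        have h1 : ‖(x k + t • y k) - (x k - t • y k)‖ ≤ ‖x k + t • y k‖ + ‖x k - t • y k‖ :=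
          norm_sub_le _ _
        have e1 : (x k + t • y k) - (x k - t • y k) = (2:ℝ) • (t • y k) := by
          rw [two_smul]; abel
        rw [e1, norm_smul] at h1
        simpa using h1
      have h3 : Real.sqrt (4 * ‖x k‖ ^ 2 + ‖t • y k‖ ^ 2) ≤ 2 * ‖x k‖ + ‖t • y k‖ :=
        Real.sqrt_le_iff.2 ⟨by positivity, by nlinarith⟩
      linarith
  -- summing the squares
  have hS : HasSum (fun k => 4 * ‖x k‖ ^ 2 + t ^ 2 * ‖y k‖ ^ 2)
      (4 * ‖x‖ ^ 2 + t ^ 2 * ‖y‖ ^ 2) :=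
    ((hasSum_norm_sq x).mul_left 4).add ((hasSum_norm_sq y).mul_left (t ^ 2))
  have hle : 4 * ‖x‖ ^ 2 + t ^ 2 * ‖y‖ ^ 2 ≤ ‖p + q + e‖ ^ 2 := by
    refine hasSum_le_of_sum_le hS fun A => ?_
    calc ∑ k ∈ A, (4 * ‖x k‖ ^ 2 + t ^ 2 * ‖y k‖ ^ 2)
        ≤ ∑ k ∈ A, ((p + q + e) k) ^ 2 := by
          refine Finset.sum_le_sum fun k _ => ?_
          have h1 := hpt k
          have h0 : 0 ≤ 4 * ‖x k‖ ^ 2 + t ^ 2 * ‖y k‖ ^ 2 := by positivity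
          calc 4 * ‖x k‖ ^ 2 + t ^ 2 * ‖y k‖ ^ 2
              = Real.sqrt (4 * ‖x k‖ ^ 2 + t ^ 2 * ‖y k‖ ^ 2) ^ 2 := (Real.sq_sqrt h0).symm
            _ ≤ ((p + q + e) k) ^ 2 := by
                gcongr
      _ ≤ ‖p + q + e‖ ^ 2 := sum_sq_le_real _ A
  -- the error term is small
  have htailnorm : ‖tail‖ < η / 2 := by
    have h1 := lp.norm_compl_sum_single (p := 2) (by simp) u s
    have h2 : ‖tail‖ ^ 2 = ‖x‖ ^ 2 - ∑ k ∈ s, ‖x k‖ ^ 2 := by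
      have hun : ‖u‖ = ‖x‖ := by rw [hu]; exact lp.norm_toNorm
      rw [← htail] at h1
      simpa [hun, hu_apply] using h1
    have h3 : ‖tail‖ ^ 2 < (η / 2) ^ 2 := by rw [h2]; exact hs
    exact lt_of_pow_lt_pow_left₀ 2 (by positivity) h3
  have henorm : ‖e‖ ≤ 2 * η := by
    have hsingle : ∀ k ∈ s, ‖(lp.single 2 k ε₀ : lp (fun _ : ℕ => ℝ) 2)‖ = ε₀ := by
      intro k _
      rw [lp.norm_single (E := fun _ : ℕ => ℝ) (p := 2) (by norm_num) k ε₀, Real.norm_eq_abs,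
        abs_of_pos hε₀]
    rw [he]
    calc ‖(∑ k ∈ s, lp.single 2 k ε₀) + (2:ℝ) • tail‖
        ≤ ‖∑ k ∈ s, (lp.single 2 k ε₀ : lp (fun _ : ℕ => ℝ) 2)‖ + ‖(2:ℝ) • tail‖ :=
          norm_add_le _ _
      _ ≤ ∑ k ∈ s, ‖(lp.single 2 k ε₀ : lp (fun _ : ℕ => ℝ) 2)‖ + 2 * ‖tail‖ := by
          refine add_le_add (norm_sum_le _ _) ?_
          rw [norm_smul]; simp
      _ = (s.card : ℝ) * ε₀ + 2 * ‖tail‖ := by
          rw [Finset.sum_congr rfl hsingle]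
          simp
      _ ≤ 2 * η := by linarith
  -- conclusion
  have hpn : ‖p‖ = ‖x + t • y‖ := by rw [hp]; exact lp.norm_toNorm
  have hqn : ‖q‖ = ‖x - t • y‖ := by rw [hq]; exact lp.norm_toNorm
  have h4 : Real.sqrt (4 + t ^ 2) ≤ ‖p + q + e‖ := by
    rw [hx, hy1] at hle
    refine Real.sqrt_le_iff.2 ⟨norm_nonneg _, ?_⟩
    linarith
  have h5 : ‖p + q + e‖ ≤ ‖x + t • y‖ + ‖x - t • y‖ + 2 * η := by
    calc ‖p + q + e‖ ≤ ‖p + q‖ + ‖e‖ := norm_add_le _ _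
      _ ≤ ‖p‖ + ‖q‖ + ‖e‖ := by gcongr; exact norm_add_le _ _
      _ ≤ ‖x + t • y‖ + ‖x - t • y‖ + 2 * η := by rw [hpn, hqn]; linarith
  have h6 : Real.sqrt (4 + t ^ 2) = 2 * Real.sqrt (1 + t ^ 2 / 4) := by
    rw [show 4 + t ^ 2 = 2 ^ 2 * (1 + t ^ 2 / 4) by ring, Real.sqrt_mul (by positivity),
      Real.sqrt_sq (by norm_num)]
  linarith

/-- (S1) averaged midpoint modulus at least `√(1 + t²/12) - 1`. -/
theorem lp_two_midpoint12 (hG : ∀ k, BlockCore (G k)) (t : ℝ) (ht : 0 < t) (x : lp G 2)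
    (hx : ‖x‖ = 1) (η : ℝ) (hη : 0 < η) :
    ∃ F : Set (lp G 2), Crest.Agent.Helper4.Cof F ∧ ∀ y ∈ F, ‖y‖ = 1 →
      Real.sqrt (1 + t ^ 2 / 12) - 1 - η ≤ (‖x + t • y‖ + ‖x - t • y‖) / 2 - 1 := by
  obtain ⟨F, hF, h⟩ := lp_two_midpoint_core hG t ht x hx η hη
  refine ⟨F, hF, fun y hy hy1 => ?_⟩
  have h1 := h y hy hy1
  have h2 : Real.sqrt (1 + t ^ 2 / 12) ≤ Real.sqrt (1 + t ^ 2 / 4) :=
    Real.sqrt_le_sqrt (by nlinarith [sq_nonneg t])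
  linarith

/-- (S2) averaged midpoint modulus at least `(√(1 + t²/4) - 1)/2`. -/
theorem lp_two_midpoint4 (hG : ∀ k, BlockCore (G k)) (t : ℝ) (ht : 0 < t) (x : lp G 2)
    (hx : ‖x‖ = 1) (η : ℝ) (hη : 0 < η) :
    ∃ F : Set (lp G 2), Crest.Agent.Helper4.Cof F ∧ ∀ y ∈ F, ‖y‖ = 1 →
      (Real.sqrt (1 + t ^ 2 / 4) - 1) / 2 - η ≤ (‖x + t • y‖ + ‖x - t • y‖) / 2 - 1 := by
  obtain ⟨F, hF, h⟩ := lp_two_midpoint_core hG t ht x hx η hη
  refine ⟨F, hF, fun y hy hy1 => ?_⟩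
  have h1 := h y hy hy1
  have h2 : 1 ≤ Real.sqrt (1 + t ^ 2 / 4) :=
    Real.le_sqrt_of_sq_le (by nlinarith [sq_nonneg t])
  linarith

/-- (S3) maximum-based midpoint modulus at least `√(1 + t²/4) - 1`. -/
theorem lp_two_maxmidpoint (hG : ∀ k, BlockCore (G k)) (t : ℝ) (ht : 0 < t) (x : lp G 2)
    (hx : ‖x‖ = 1) (η : ℝ) (hη : 0 < η) :
    ∃ F : Set (lp G 2), Crest.Agent.Helper4.Cof F ∧ ∀ y ∈ F, ‖y‖ = 1 →
      Real.sqrt (1 + t ^ 2 / 4) - 1 - η ≤ max ‖x + t • y‖ ‖x - t • y‖ - 1 := by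
  obtain ⟨F, hF, h⟩ := lp_two_midpoint_core hG t ht x hx η hη
  refine ⟨F, hF, fun y hy hy1 => ?_⟩
  have h1 := h y hy hy1
  have h2 : ‖x + t • y‖ ≤ max ‖x + t • y‖ ‖x - t • y‖ := le_max_left _ _
  have h3 : ‖x - t • y‖ ≤ max ‖x + t • y‖ ‖x - t • y‖ := le_max_right _ _
  linarith

/-- (S4) chains inside single blocks prevent AUC renormings of the `ℓ²`-sum. -/
theorem lp_two_not_auc {κ C : ℝ} (hκ : 0 < κ) (hC : 0 < C)
    (h : ∀ K : ℕ, ∃ k : ℕ, ∃ D : ℕ → Set (G k), (D 0).Nonempty ∧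
      (∀ j, ∀ x ∈ D j, 1 / C ≤ ‖x‖ ∧ ‖x‖ ≤ C) ∧
      ∀ j < K, ∀ x ∈ D j, ∀ F : Set (G k), Crest.Agent.Helper4.Cof F → ∀ δ : ℝ, 0 < δ →
        ∃ d ∈ F, κ ≤ ‖d‖ ∧ ∃ x' ∈ D (j + 1), ‖x + d - x'‖ ≤ δ)
    {N : lp G 2 → ℝ} (hN : Crest.Agent.Helper4.EquivNorm N) :
    ¬ Crest.Agent.Helper4.AUC N := by
  classical
  refine not_auc_of_chains hκ hC (fun K => ?_) hN
  obtain ⟨k, D, ⟨x0, hx0⟩, hbd, hstep⟩ := h K
  refine ⟨fun j => lp.single 2 k '' D j, ⟨lp.single 2 k x0, x0, hx0, rfl⟩, ?_, ?_⟩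
  · rintro j _ ⟨x, hxD, rfl⟩
    rw [lp.norm_single (by norm_num)]
    exact hbd j x hxD
  · rintro j hj _ ⟨x, hxD, rfl⟩ F hF δ hδ
    have hFk : Cof ((lp.singleContinuousLinearMap ℝ G 2 k) ⁻¹' F) := cof_preimage _ hF
    obtain ⟨d, hdF, hdκ, x', hx', hclose⟩ := hstep j hj x hxD _ hFk δ hδ
    refine ⟨lp.single 2 k d, hdF, ?_, lp.single 2 k x', ⟨x', hx', rfl⟩, ?_⟩
    · rw [lp.norm_single (by norm_num)]
      exact hdκ
    · rw [← lp.single_add, ← lp.single_sub, lp.norm_single (by norm_num)]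
      exact hclose

end Sum

end Crest.Agent.Helper9
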